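import Vale.Agent.P181.FL.Defs

/-!
# P181, FL [TR]: `WordStmt` from `CapStmt` and `DomStmt`
-/

set_option autoImplicit false

open scoped BigOperators

namespace Vale.Agent.P181.FL.H908

open Finset

section

variable {P Q : Type} [Fintype P] [DecidableEq P] [Fintype Q] [DecidableEq Q]

/-- precomposition of bijections -/
def pre (g : Equiv.Perm P) : (P ≃ Q) ≃ (P ≃ Q) where
  toFun l := g.trans l
  invFun l := g.symm.trans l
  left_inv l := by ext p; simp
  right_inv l := by ext p; simp

/-- bijections as permutations of the target -/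
def post (l0 : P ≃ Q) : Equiv.Perm Q ≃ (P ≃ Q) where
  toFun g := l0.trans g
  invFun l := l0.symm.trans l
  left_inv g := by ext p; simp
  right_inv l := by ext p; simp

theorem sign_pre (l0 l : P ≃ Q) (g : Equiv.Perm P) :
    Equiv.Perm.sign (l0.symm.trans (g.trans l)) =
      Equiv.Perm.sign g * Equiv.Perm.sign (l0.symm.trans l) := by
  have h : (l0.symm.trans (g.trans l) : Equiv.Perm Q) =
      ((l0.symm.trans g).trans l0).trans (l0.symm.trans l) := by
    ext x
    simp
  rw [h, Equiv.Perm.sign_trans, Equiv.Perm.sign_symm_trans_trans, mul_comm]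

variable {C R : Type} [DecidableEq C]

/-- the transferred function -/
def kap (l0 : P ≃ Q) (col : Q → C) (row : Q → R) (f : (P → R) → ℂ) (c : P → C) : ℂ :=
  ∑ l : P ≃ Q, if ∀ p, col (l p) = c p then
    ((Equiv.Perm.sign (l0.symm.trans l) : ℤ) : ℂ) * f (fun p => row (l p)) else 0

theorem kap_comp (l0 : P ≃ Q) (col : Q → C) (row : Q → R) (f : (P → R) → ℂ) (c : P → C)
    (g : Equiv.Perm P) : kap l0 col row f (fun p => c (g p)) =
      ((Equiv.Perm.sign g : ℤ) : ℂ) * ∑ l : P ≃ Q, if ∀ p, col (l p) = c p then
        ((Equiv.Perm.sign (l0.symm.trans l) : ℤ) : ℂ) * f (fun p => row (l (g p))) else 0 := by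
  rw [kap, ← (pre g).sum_comp, mul_sum]
  refine sum_congr rfl fun l _ => ?_
  have h1 : (∀ p, col ((pre g l) p) = c (g p)) ↔ ∀ p, col (l p) = c p := by
    constructor
    · intro h p
      have := h (g.symm p)
      simpa [pre] using this
    · intro h p
      exact h (g p)
  by_cases h : ∀ p, col (l p) = c p
  · rw [if_pos h, if_pos (h1.2 h)]
    have h2 : Equiv.Perm.sign (l0.symm.trans (pre g l)) =
        Equiv.Perm.sign g * Equiv.Perm.sign (l0.symm.trans l) := sign_pre l0 l g
    rw [h2]
    push_cast
    rw [mul_assoc]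
    rfl
  · rw [if_neg h, if_neg (fun h2 => h (h1.1 h2)), mul_zero]

theorem kap_self (l0 : P ≃ Q) (col : Q → C) (row : Q → R) (f : (P → R) → ℂ) :
    kap l0 col row f (fun p => col (l0 p)) = ∑ g : Equiv.Perm Q,
      if ∀ x, col (g x) = col x then
        ((Equiv.Perm.sign g : ℤ) : ℂ) * f (fun p => row (g (l0 p))) else 0 := by
  rw [kap, ← (post l0).sum_comp]
  refine sum_congr rfl fun g _ => ?_
  have h1 : (∀ p, col ((post l0 g) p) = col (l0 p)) ↔ ∀ x, col (g x) = col x := by
    constructor
    · intro h x
      have := h (l0.symm x)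
      simpa [post] using this
    · intro h p
      exact h (l0 p)
  have h2 : (l0.symm.trans (post l0 g) : Equiv.Perm Q) = g := by
    ext x
    simp [post]
  by_cases h : ∀ x, col (g x) = col x
  · rw [if_pos h, if_pos (h1.2 h), h2]
    rfl
  · rw [if_neg h, if_neg (fun h3 => h (h1.1 h3))]

end

/-- the permutation of the positions given by a permutation of the blocks -/
def lft {X : Type} (m : ℕ) (g : Equiv.Perm X) : Equiv.Perm (X × Fin m) :=
  Equiv.prodCongrLeft fun _ => g

theorem sign_lft {X : Type} [Fintype X] [DecidableEq X] (m : ℕ) (hm : Even m)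
    (g : Equiv.Perm X) : Equiv.Perm.sign (lft m g) = 1 := by
  rw [lft, Equiv.Perm.sign_prodCongrLeft, prod_const, card_univ, Fintype.card_fin]
  obtain ⟨k, rfl⟩ := hm
  rcases Int.units_eq_one_or (Equiv.Perm.sign g) with h | h
  · rw [h, one_pow]
  · rw [h, ← two_mul, pow_mul]
    simp

/-- **[TR]** -/
theorem word (hC : CapStmt) (hD : DomStmt) : WordStmt := by
  intro N q m n lam f hm hq hlam hle hf hs1 hs2 hs3
  refine hC n lam (Pos N q m) f hlam hf ?_
  intro l0
  let col : Cell lam → Fin ((q + 1) * m) := fun x => ⟨x.2, lt_of_lt_of_le x.2.2 (hle x.1)⟩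
  have h0 : ∀ c, kap l0 col (fun x => x.1) f c = 0 := by
    refine hD N q m (kap l0 col (fun x => x.1) f) hm hq ?_ ?_ ?_
    · intro g hg c
      rw [kap_comp, kap]
      congr 1
      refine sum_congr rfl fun l _ => ?_
      rw [hs1 g hg (fun p => (l p).1)]
    · intro e c
      have h1 := kap_comp l0 col (fun x => x.1) f c (lft m (lft q e))
      rw [sign_lft m hm, Units.val_one, Int.cast_one, one_mul] at h1
      refine Eq.trans h1 ?_
      rw [kap]
      refine sum_congr rfl fun l _ => ?_
      have h2 := hs2 e (fun p => (l p).1)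
      rw [← h2]
      rfl
    · intro c
      have h1 : ∀ g : Equiv.Perm (Fin N × Fin q),
          kap l0 col (fun x => x.1) f (fun p => c (g p.1, p.2)) =
          ∑ l : Pos N q m ≃ Cell lam, if ∀ p, col (l p) = c p then
            ((Equiv.Perm.sign (l0.symm.trans l) : ℤ) : ℂ) *
              f (fun p => (l (g p.1, p.2)).1) else 0 := fun g => by
        have h2 := kap_comp l0 col (fun x => x.1) f c (lft m g)
        rw [sign_lft m hm, Units.val_one, Int.cast_one, one_mul] at h2
        exact h2
      rw [sum_congr rfl fun g _ => h1 g, sum_comm]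
      refine sum_eq_zero fun l _ => ?_
      by_cases h : ∀ p, col (l p) = c p
      · simp only [if_pos h]
        rw [← mul_sum, hs3 (fun p => (l p).1), mul_zero]
      · simp only [if_neg h]
        exact sum_const_zero
  have h1 := h0 (fun p => col (l0 p))
  rw [kap_self] at h1
  refine Eq.trans (sum_congr rfl fun g _ => ?_) h1
  have h2 : (∀ c, ((g c).2 : ℕ) = (c.2 : ℕ)) ↔ ∀ x, col (g x) = col x := by
    constructor
    · intro h x
      exact Fin.ext (h x)
    · intro h x
      exact congrArg Fin.val (h x)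
  by_cases h : ∀ x, col (g x) = col x
  · rw [if_pos h, if_pos (h2.2 h)]
  · rw [if_neg h, if_neg (fun h3 => h (h2.1 h3))]

end Vale.Agent.P181.FL.H908
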